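import Vale.Agent.P181.SZ.Defs

set_option autoImplicit false

/-!
# P181, SZ, task C1 (helper167): the flow `FlowS`
-/

namespace Vale.Agent.P181.SZC1

open Vale.Agent.P181.SZ

/-- double counting along a family of injections -/
theorem double_count {α β : Type*} [DecidableEq α] (Bad T : Finset α) (F : α → Finset β)
    (g : α → β → α) (N : α → ℕ) (M₁ M₂ : ℕ) (hF : ∀ k ∈ Bad, M₁ ≤ (F k).card)
    (hT : ∀ k ∈ Bad, ∀ c ∈ F k, g k c ∈ T) (hN : ∀ k ∈ Bad, ∀ c ∈ F k, N k ≤ N (g k c))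
    (hfib : ∀ k' ∈ T, ((Bad.sigma F).filter fun p => g p.1 p.2 = k').card ≤ M₂) :
    M₁ * ∑ k ∈ Bad, N k ≤ M₂ * ∑ k ∈ T, N k := by
  calc M₁ * ∑ k ∈ Bad, N k = ∑ k ∈ Bad, M₁ * N k := Finset.mul_sum _ _ _
    _ ≤ ∑ k ∈ Bad, ∑ c ∈ F k, N (g k c) := by
        refine Finset.sum_le_sum fun k hk => ?_
        calc M₁ * N k ≤ (F k).card * N k := Nat.mul_le_mul_right _ (hF k hk)
          _ = ∑ _c ∈ F k, N k := by rw [Finset.sum_const, smul_eq_mul]
          _ ≤ ∑ c ∈ F k, N (g k c) := Finset.sum_le_sum fun c hc => hN k hk c hc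
    _ = ∑ p ∈ Bad.sigma F, N (g p.1 p.2) :=
        (Finset.sum_sigma Bad F (fun p : (Σ _ : α, β) => N (g p.1 p.2))).symm
    _ = ∑ k' ∈ T, ∑ p ∈ (Bad.sigma F).filter (fun p => g p.1 p.2 = k'), N (g p.1 p.2) := by
        refine (Finset.sum_fiberwise_of_maps_to (fun p hp => ?_) _).symm
        rw [Finset.mem_sigma] at hp
        exact hT p.1 hp.1 p.2 hp.2
    _ ≤ ∑ k' ∈ T, M₂ * N k' := by
        refine Finset.sum_le_sum fun k' hk' => ?_
        calc ∑ p ∈ (Bad.sigma F).filter (fun p => g p.1 p.2 = k'), N (g p.1 p.2)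
            = ∑ _p ∈ (Bad.sigma F).filter (fun p => g p.1 p.2 = k'), N k' := by
              refine Finset.sum_congr rfl fun p hp => ?_
              rw [(Finset.mem_filter.1 hp).2]
          _ = ((Bad.sigma F).filter (fun p => g p.1 p.2 = k')).card * N k' := by
              rw [Finset.sum_const, smul_eq_mul]
          _ ≤ M₂ * N k' := Nat.mul_le_mul_right _ (hfib k' hk')
    _ = M₂ * ∑ k ∈ T, N k := (Finset.mul_sum _ _ _).symm

theorem mem_PT {w : ℕ} {k : Multiset ℕ} : k ∈ PT w ↔ k.sum = w ∧ ∀ x ∈ k, 2 ≤ x := by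
  unfold PT
  simp only [Finset.mem_filter, Finset.mem_image, Finset.mem_univ, true_and]
  constructor
  · rintro ⟨⟨p, rfl⟩, h⟩
    exact ⟨p.parts_sum, h⟩
  · rintro ⟨h1, h2⟩
    exact ⟨⟨⟨k, fun {x} hx => by have := h2 x hx; omega, h1⟩, rfl⟩, h2⟩

/-- the number of values `≥ S` of a multiset of sum `w` -/
theorem card_values (k : Multiset ℕ) (S : ℕ) :
    (k.toFinset.filter (S ≤ ·)).card * S ≤ k.sum := by
  classical
  calc (k.toFinset.filter (S ≤ ·)).card * S = ∑ _x ∈ k.toFinset.filter (S ≤ ·), S := by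
        rw [Finset.sum_const, smul_eq_mul]
    _ ≤ ∑ x ∈ k.toFinset.filter (S ≤ ·), x :=
        Finset.sum_le_sum fun x hx => (Finset.mem_filter.1 hx).2
    _ ≤ ∑ x ∈ k.toFinset, x :=
        Finset.sum_le_sum_of_subset (Finset.filter_subset _ _)
    _ ≤ ∑ x ∈ k.toFinset, k.count x * x := by
        refine Finset.sum_le_sum fun x hx => ?_
        have : 0 < k.count x := Multiset.count_pos.2 (Multiset.mem_toFinset.1 hx)
        exact Nat.le_mul_of_pos_left _ this
    _ = k.sum := by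
        conv_rhs => rw [Finset.sum_multiset_count k]
        simp only [smul_eq_mul]

/-- the block of index `q` of `[S, 2 S)` -/
def blk (S s q : ℕ) : Finset ℕ := Finset.Ico (S + q * s) (S + (q + 1) * s)

theorem blk_ge {S s q u : ℕ} (h : u ∈ blk S s q) : S ≤ u :=
  (Nat.le_add_right _ _).trans (Finset.mem_Ico.1 h).1

theorem blk_lt {S s q u K : ℕ} (h : u ∈ blk S s q) (hq : q < K) (hs : s * K ≤ S) : u < 2 * S := by
  have h1 := (Finset.mem_Ico.1 h).2
  have h2 : (q + 1) * s ≤ K * s := Nat.mul_le_mul_right _ hq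
  have h3 : K * s = s * K := mul_comm _ _
  omega

theorem blk_disj {S s q q' u : ℕ} (h : u ∈ blk S s q) (h' : u ∈ blk S s q') : q = q' := by
  have h1 := Finset.mem_Ico.1 h
  have h2 := Finset.mem_Ico.1 h'
  by_contra hne
  rcases Nat.lt_or_gt_of_ne hne with hlt | hlt
  · have : (q + 1) * s ≤ q' * s := Nat.mul_le_mul_right _ hlt
    omega
  · have : (q' + 1) * s ≤ q * s := Nat.mul_le_mul_right _ hlt
    omega

theorem card_blk (S s q : ℕ) : (blk S s q).card = s := by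
  unfold blk
  rw [Nat.card_Ico]
  have : (q + 1) * s = q * s + s := by ring
  omega

/-- the letters given by a choice -/
def lets {n : ℕ} (f : Fin n → ℕ) (u : ℕ) : Multiset ℕ := u ::ₘ (Finset.univ.val.map f)

theorem mem_lets {n : ℕ} {f : Fin n → ℕ} {u v : ℕ} : v ∈ lets f u ↔ v = u ∨ ∃ q, f q = v := by
  unfold lets
  rw [Multiset.mem_cons, Multiset.mem_map]
  simp

theorem sum_lets {n : ℕ} (f : Fin n → ℕ) (u : ℕ) : (lets f u).sum = u + ∑ q, f q := by
  unfold lets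
  rw [Multiset.sum_cons]
  rfl

theorem card_lets {n : ℕ} (f : Fin n → ℕ) (u : ℕ) : Multiset.card (lets f u) = n + 1 := by
  unfold lets
  rw [Multiset.card_cons, Multiset.card_map]
  simp

theorem nodup_lets {n S s : ℕ} {f : Fin n → ℕ} {u : ℕ} (hf : ∀ q : Fin n, f q ∈ blk S s (q + 1))
    (hu : u ∈ blk S s 0) : (lets f u).Nodup := by
  unfold lets
  rw [Multiset.nodup_cons]
  constructor
  · rw [Multiset.mem_map]
    rintro ⟨q, -, hq⟩
    have h1 := hf q
    rw [hq] at h1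
    have := blk_disj h1 hu
    omega
  · refine Multiset.Nodup.map ?_ Finset.univ.nodup
    intro q q' h
    have h1 := hf q
    have h2 := hf q'
    rw [h] at h1
    have := blk_disj h1 h2
    exact Fin.ext (by omega)

/-- the choices for the multiset `k` and its letter `y` -/
noncomputable def choices (n S s : ℕ) (k : Multiset ℕ) (y : ℕ) : Finset (Σ _ : Fin n → ℕ, ℕ) :=
  open scoped Classical in
  (Fintype.piFinset fun q : Fin n => (blk S s (q + 1)).filter (· ∉ k)).sigma fun f =>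
    (blk S s 0).filter fun u => u ∉ k ∧ y - (u + ∑ q, f q) ∉ k.erase y

/-- the result of a choice -/
def res {n : ℕ} (k : Multiset ℕ) (y : ℕ) (c : Σ _ : Fin n → ℕ, ℕ) : Multiset ℕ :=
  (y - (c.2 + ∑ q, c.1 q)) ::ₘ (lets c.1 c.2 + k.erase y)

theorem mem_choices {n S s y : ℕ} {k : Multiset ℕ} {c : Σ _ : Fin n → ℕ, ℕ} :
    c ∈ choices n S s k y ↔ (∀ q : Fin n, c.1 q ∈ blk S s (q + 1) ∧ c.1 q ∉ k) ∧ c.2 ∈ blk S s 0 ∧
      c.2 ∉ k ∧ y - (c.2 + ∑ q, c.1 q) ∉ k.erase y := by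
  classical
  unfold choices
  simp only [Finset.mem_sigma, Fintype.mem_piFinset, Finset.mem_filter]

theorem card_not_mem {S s q P : ℕ} {k : Multiset ℕ} (hP : (k.toFinset.filter (S ≤ ·)).card ≤ P) :
    s - P ≤ ((blk S s q).filter (· ∉ k)).card := by
  classical
  have h1 : ((blk S s q).filter (· ∈ k)).card ≤ P := by
    refine (Finset.card_le_card ?_).trans hP
    intro u hu
    rw [Finset.mem_filter] at hu ⊢
    exact ⟨Multiset.mem_toFinset.2 hu.2, blk_ge hu.1⟩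
  have h2 := Finset.card_filter_add_card_filter_not (s := blk S s q) (· ∈ k)
  rw [card_blk] at h2
  omega

/-- lower bound for the number of choices -/
theorem card_choices {n S s P y : ℕ} {k : Multiset ℕ}
    (hP : (k.toFinset.filter (S ≤ ·)).card ≤ P) (hs : s * (n + 1) ≤ S) (hy : 4 * (n + 1) * S ≤ y) :
    (s - 2 * P) ^ (n + 1) ≤ (choices n S s k y).card := by
  classical
  unfold choices
  rw [Finset.card_sigma]
  have hsum : ∀ f ∈ Fintype.piFinset fun q : Fin n => (blk S s (q + 1)).filter (· ∉ k),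
      ∑ q, f q ≤ n * (2 * S) := by
    intro f hf
    rw [Fintype.mem_piFinset] at hf
    calc ∑ q, f q ≤ ∑ _q : Fin n, 2 * S := by
          refine Finset.sum_le_sum fun q _ => ?_
          have h1 := (Finset.mem_filter.1 (hf q)).1
          exact (blk_lt (K := n + 1) h1 (by omega) hs).le
      _ = n * (2 * S) := by simp
  have hone : ∀ f ∈ Fintype.piFinset fun q : Fin n => (blk S s (q + 1)).filter (· ∉ k),
      s - 2 * P ≤ ((blk S s 0).filter fun u => u ∉ k ∧ y - (u + ∑ q, f q) ∉ k.erase y).card := by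
    intro f hf
    have hSig := hsum f hf
    have h1 : s - P ≤ ((blk S s 0).filter (· ∉ k)).card := card_not_mem hP
    have h2 : (((blk S s 0).filter (· ∉ k)).filter
        fun u => y - (u + ∑ q, f q) ∈ k.erase y).card ≤ P := by
      refine (Finset.card_le_card_of_injOn (fun u => y - (u + ∑ q, f q)) ?_ ?_).trans hP
      · intro u hu
        simp only [Finset.coe_filter, Set.mem_ofPred_eq, Finset.mem_filter] at hu
        simp only [Finset.coe_filter, Set.mem_ofPred_eq, Multiset.mem_toFinset]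
        refine ⟨Multiset.mem_of_mem_erase hu.2, ?_⟩
        have h3 := blk_lt (K := n + 1) hu.1.1 (by omega) hs
        have h4 : 4 * (n + 1) * S = 2 * (n * (2 * S)) + 4 * S := by ring
        have h5 : 0 ≤ n * (2 * S) := Nat.zero_le _
        omega
      · intro u hu u' hu' huu
        simp only [Finset.coe_filter, Set.mem_ofPred_eq, Finset.mem_filter] at hu hu'
        have h3 := blk_lt (K := n + 1) hu.1.1 (by omega) hs
        have h3' := blk_lt (K := n + 1) hu'.1.1 (by omega) hs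
        have h4 : 4 * (n + 1) * S = 2 * (n * (2 * S)) + 4 * S := by ring
        have h5 : 0 ≤ n * (2 * S) := Nat.zero_le _
        simp only at huu
        omega
    have h3 := Finset.card_filter_add_card_filter_not (s := (blk S s 0).filter (· ∉ k))
      (fun u => y - (u + ∑ q, f q) ∈ k.erase y)
    have h4 : (((blk S s 0).filter (· ∉ k)).filter
        fun u => ¬ y - (u + ∑ q, f q) ∈ k.erase y) =
        (blk S s 0).filter fun u => u ∉ k ∧ y - (u + ∑ q, f q) ∉ k.erase y := by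
      rw [Finset.filter_filter]
    rw [h4] at h3
    omega
  calc (s - 2 * P) ^ (n + 1) = (s - 2 * P) ^ n * (s - 2 * P) := pow_succ _ _
    _ ≤ (Fintype.piFinset fun q : Fin n => (blk S s (q + 1)).filter (· ∉ k)).card * (s - 2 * P) := by
        refine Nat.mul_le_mul_right _ ?_
        rw [Fintype.card_piFinset]
        calc (s - 2 * P) ^ n = ∏ _q : Fin n, (s - 2 * P) := by simp
          _ ≤ ∏ q : Fin n, ((blk S s (q + 1)).filter (· ∉ k)).card := by
              refine Finset.prod_le_prod' fun q _ => ?_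
              have := card_not_mem (S := S) (s := s) (q := q + 1) hP
              omega
    _ = ∑ _f ∈ Fintype.piFinset fun q : Fin n => (blk S s (q + 1)).filter (· ∉ k),
          (s - 2 * P) := by rw [Finset.sum_const, smul_eq_mul]
    _ ≤ _ := Finset.sum_le_sum hone

/-- the multisets which occur in the flow -/
def TF (a J S Y : ℕ) (k : Multiset ℕ) : Prop :=
  J ≤ Multiset.card k ∧ (∃ x ∈ k, a ≤ x + Y) ∧ Multiset.card (k.filter (· < S)) ≤ a

theorem exists_letter {a J S Y : ℕ} {k : Multiset ℕ} (hk : TF a J S Y k)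
    (hg : ¬ GoodF a J S Y k) (ha : 3 * Y ≤ a) :
    ∃ y ∈ k, 2 * Y ≤ y ∧ (a < y ∨ ∃ x ∈ k.erase y, a ≤ x + Y) := by
  obtain ⟨h1, ⟨x, hx, hxa⟩, h3⟩ := hk
  by_cases hall : ∀ x ∈ k, x ≤ a
  · have : ¬ ∀ y ∈ k.erase x, y < 2 * Y := fun h => hg ⟨h1, hall, ⟨x, hx, hxa, h⟩, h3⟩
    push Not at this
    obtain ⟨y, hy, hy2⟩ := this
    refine ⟨y, Multiset.mem_of_mem_erase hy, hy2, Or.inr ⟨x, ?_, hxa⟩⟩
    obtain ⟨t, ht⟩ := Multiset.exists_cons_of_mem hx
    rw [ht, Multiset.erase_cons_head] at hy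
    obtain ⟨t', ht'⟩ := Multiset.exists_cons_of_mem hy
    rw [ht, ht', Multiset.cons_swap, Multiset.erase_cons_head]
    exact Multiset.mem_cons_self _ _
  · push Not at hall
    obtain ⟨y, hy, hya⟩ := hall
    exact ⟨y, hy, by omega, Or.inl hya⟩

theorem sum_choice {n S s Y y : ℕ} {k : Multiset ℕ} {c : Σ _ : Fin n → ℕ, ℕ}
    (hsS : s * (n + 1) ≤ S) (hY : Y = 2 * (n + 1) * S) (hc : c ∈ choices n S s k y) :
    c.2 + ∑ q, c.1 q ≤ Y := by
  rw [mem_choices] at hc
  have h1 := blk_lt (K := n + 1) hc.2.1 (by omega) hsS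
  have h2 : ∑ q, c.1 q ≤ n * (2 * S) := by
    calc ∑ q, c.1 q ≤ ∑ _q : Fin n, 2 * S := by
          refine Finset.sum_le_sum fun q _ => ?_
          exact (blk_lt (K := n + 1) (hc.1 q).1 (by omega) hsS).le
      _ = n * (2 * S) := by simp
  have h3 : Y = 2 * S + n * (2 * S) := by rw [hY]; ring
  omega

theorem lets_ge {n S s y : ℕ} {k : Multiset ℕ} {c : Σ _ : Fin n → ℕ, ℕ}
    (hc : c ∈ choices n S s k y) {v : ℕ} (hv : v ∈ lets c.1 c.2) : S ≤ v := by
  rw [mem_choices] at hc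
  rcases mem_lets.1 hv with rfl | ⟨q, rfl⟩
  · exact blk_ge hc.2.1
  · exact blk_ge (hc.1 q).1

/-- the class is stable -/
theorem stable {a J S Y w n s y : ℕ} {k : Multiset ℕ} {c : Σ _ : Fin n → ℕ, ℕ} (hS : 2 ≤ S)
    (hsS : s * (n + 1) ≤ S) (hY : Y = 2 * (n + 1) * S) (hYS : 2 * S ≤ Y) (hksum : k.sum = w)
    (hk2 : ∀ x ∈ k, 2 ≤ x) (hk : TF a J S Y k) (hyk : y ∈ k) (hyY : 2 * Y ≤ y)
    (hyx : a < y ∨ ∃ x ∈ k.erase y, a ≤ x + Y) (hc : c ∈ choices n S s k y) :
    ((res k y c).sum = w ∧ ∀ x ∈ res k y c, 2 ≤ x) ∧ TF a J S Y (res k y c) := by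
  obtain ⟨hkJ, -, hkS⟩ := hk
  have hcs := sum_choice hsS hY hc
  have hlS : ∀ v ∈ lets c.1 c.2, S ≤ v := fun v hv => lets_ge hc hv
  obtain ⟨t, rfl⟩ := Multiset.exists_cons_of_mem hyk
  unfold res
  rw [Multiset.erase_cons_head] at hyx ⊢
  rw [Multiset.sum_cons] at hksum
  rw [Multiset.card_cons] at hkJ
  rw [Multiset.filter_cons_of_neg _ (by omega)] at hkS
  refine ⟨⟨?_, ?_⟩, ?_, ?_, ?_⟩
  · rw [Multiset.sum_cons, Multiset.sum_add, sum_lets]
    omega
  · intro x hx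
    rw [Multiset.mem_cons, Multiset.mem_add] at hx
    rcases hx with rfl | hx | hx
    · omega
    · exact hS.trans (hlS x hx)
    · exact hk2 x (Multiset.mem_cons_of_mem hx)
  · rw [Multiset.card_cons, Multiset.card_add, card_lets]
    omega
  · rcases hyx with hya | ⟨x, hx, hxa⟩
    · exact ⟨_, Multiset.mem_cons_self _ _, by omega⟩
    · exact ⟨x, Multiset.mem_cons_of_mem (Multiset.mem_add.2 (Or.inr hx)), hxa⟩
  · rw [Multiset.filter_cons_of_neg _ (by omega), Multiset.filter_add,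
      Multiset.filter_eq_nil.2 (fun v hv => not_lt.2 (hlS v hv)), zero_add]
    exact hkS

/-- splitting the letter `y` -/
theorem split_le {N : Multiset ℕ → ℕ} (hN : SplitS N) {S Y n s y : ℕ} {k : Multiset ℕ}
    {c : Σ _ : Fin n → ℕ, ℕ} (hS : 2 ≤ S) (hsS : s * (n + 1) ≤ S) (hY : Y = 2 * (n + 1) * S)
    (hYS : 2 * S ≤ Y) (hyk : y ∈ k) (hyY : 2 * Y ≤ y) (hc : c ∈ choices n S s k y) :
    N k ≤ N (res k y c) := by
  have hcs := sum_choice hsS hY hc
  rw [mem_choices] at hc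
  obtain ⟨hc1, hc2, hc3, hc4⟩ := hc
  have h1 := hN (k.erase y) (lets c.1 c.2) (y - (c.2 + ∑ q, c.1 q)) (by omega)
    (nodup_lets (fun q => (hc1 q).1) hc2) ?_ hc4
  · have h2 : (y - (c.2 + ∑ q, c.1 q) + (lets c.1 c.2).sum) ::ₘ k.erase y = k := by
      rw [sum_lets, Nat.sub_add_cancel (by omega)]
      exact Multiset.cons_erase hyk
    rw [h2] at h1
    exact h1
  · intro u hu
    have hub : S ≤ u ∧ u < 2 * S ∧ u ∉ k := by
      rcases mem_lets.1 hu with rfl | ⟨q, rfl⟩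
      · exact ⟨blk_ge hc2, blk_lt (K := n + 1) hc2 (by omega) hsS, hc3⟩
      · exact ⟨blk_ge (hc1 q).1, blk_lt (K := n + 1) (hc1 q).1 (by omega) hsS, (hc1 q).2⟩
    exact ⟨by omega, fun h => hub.2.2 (Multiset.mem_of_mem_erase h), by omega⟩

open scoped Classical in
/-- the fibres -/
theorem fibre_le {Bad : Finset (Multiset ℕ)} {n S s P Y w : ℕ} {y : Multiset ℕ → ℕ}
    (hS : 2 ≤ S) (hsS : s * (n + 1) ≤ S) (hY : Y = 2 * (n + 1) * S) (hYS : 2 * S ≤ Y)
    (hy : ∀ k ∈ Bad, y k ∈ k ∧ 2 * Y ≤ y k) (k' : Multiset ℕ) (hk's : k'.sum = w)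
    (hP : (k'.toFinset.filter (S ≤ ·)).card ≤ P) :
    ((Bad.sigma fun k => choices n S s k (y k)).filter
      fun p => res p.1 (y p.1) p.2 = k').card ≤ P ^ (n + 1) * w := by
  have hc1 : ∀ q, ((blk S s q).filter (· ∈ k')).card ≤ P := by
    intro q
    refine (Finset.card_le_card ?_).trans hP
    intro u hu
    rw [Finset.mem_filter] at hu ⊢
    exact ⟨Multiset.mem_toFinset.2 hu.2, blk_ge hu.1⟩
  have hc2 : (k'.toFinset.filter (1 ≤ ·)).card ≤ w := by
    have := card_values k' 1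
    rw [hk's] at this
    omega
  have hU : (((Fintype.piFinset fun q : Fin n => (blk S s (q + 1)).filter (· ∈ k')).sigma
      fun _ => (blk S s 0).filter (· ∈ k')) ×ˢ (k'.toFinset.filter (1 ≤ ·))).card ≤
      P ^ (n + 1) * w := by
    rw [Finset.card_product, Finset.card_sigma, Finset.sum_const, smul_eq_mul]
    refine Nat.mul_le_mul ?_ hc2
    rw [pow_succ]
    refine Nat.mul_le_mul ?_ (hc1 0)
    rw [Fintype.card_piFinset]
    calc ∏ q : Fin n, ((blk S s (q + 1)).filter (· ∈ k')).card ≤ ∏ _q : Fin n, P :=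
          Finset.prod_le_prod' fun q _ => hc1 _
      _ = P ^ n := by simp
  refine (Finset.card_le_card_of_injOn
    (fun p => (p.2, y p.1 - (p.2.2 + ∑ q, p.2.1 q))) ?_ ?_).trans hU
  · intro p hp
    rw [Finset.mem_coe, Finset.mem_filter, Finset.mem_sigma] at hp
    obtain ⟨⟨hp1, hp2⟩, hp3⟩ := hp
    have hcs := sum_choice hsS hY hp2
    have hyY := (hy _ hp1).2
    rw [mem_choices] at hp2
    have hin : ∀ v ∈ lets p.2.1 p.2.2, v ∈ k' := by
      intro v hv
      rw [← hp3]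
      exact Multiset.mem_cons_of_mem (Multiset.mem_add.2 (Or.inl hv))
    rw [Finset.mem_coe, Finset.mem_product, Finset.mem_sigma, Fintype.mem_piFinset]
    refine ⟨⟨fun q => ?_, ?_⟩, ?_⟩
    · rw [Finset.mem_filter]
      exact ⟨(hp2.1 q).1, hin _ (mem_lets.2 (Or.inr ⟨q, rfl⟩))⟩
    · rw [Finset.mem_filter]
      exact ⟨hp2.2.1, hin _ (mem_lets.2 (Or.inl rfl))⟩
    · rw [Finset.mem_filter, Multiset.mem_toFinset]
      refine ⟨?_, ?_⟩
      · rw [← hp3]
        exact Multiset.mem_cons_self _ _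
      · show 1 ≤ y p.1 - (p.2.2 + ∑ q, p.2.1 q)
        omega
  · intro p hp p' hp' hpp
    rw [Finset.mem_coe, Finset.mem_filter, Finset.mem_sigma] at hp hp'
    obtain ⟨⟨hp1, hp2⟩, hp3⟩ := hp
    obtain ⟨⟨hp1', hp2'⟩, hp3'⟩ := hp'
    have hcs := sum_choice hsS hY hp2
    have hcs' := sum_choice hsS hY hp2'
    have hyY := (hy _ hp1).2
    have hyY' := (hy _ hp1').2
    have hyk := (hy _ hp1).1
    have hyk' := (hy _ hp1').1
    obtain ⟨k, c⟩ := p
    obtain ⟨k₂, c₂⟩ := p'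
    simp only [Prod.mk.injEq] at hpp
    obtain ⟨rfl, hpp⟩ := hpp
    simp only at hp1 hp1' hp2 hp2' hp3 hp3' hcs hcs' hyY hyY' hyk hyk'
    have hyy : y k = y k₂ := by omega
    have h1 : k.erase (y k) = k₂.erase (y k₂) := by
      have h2 := hp3.trans hp3'.symm
      unfold res at h2
      rw [hpp] at h2
      exact add_left_cancel ((Multiset.cons_inj_right _).1 h2)
    have h3 : k = k₂ := by
      rw [← Multiset.cons_erase hyk, ← Multiset.cons_erase hyk', h1, hyy]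
    subst h3
    rfl

/-- **C1**. -/
theorem flowS : FlowS := by
  classical
  intro N hN a J S K X w hK hS hX hw hwX ha
  obtain ⟨n, rfl⟩ : ∃ n, K = n + 1 := ⟨K - 1, by omega⟩
  obtain ⟨Y, hY⟩ : ∃ Y, Y = 2 * (n + 1) * S := ⟨_, rfl⟩
  rw [← hY]
  obtain ⟨s, hs⟩ : ∃ s, s = S / (n + 1) := ⟨_, rfl⟩
  obtain ⟨P, hP⟩ : ∃ P, P = w / S := ⟨_, rfl⟩
  have hYS : 2 * S ≤ Y := by
    rw [hY]
    have : 2 * (n + 1) * S = 2 * S + 2 * n * S := by ring
    omega
  have ha3 : 3 * Y ≤ a := by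
    have : 3 * Y = 6 * (n + 1) * S := by rw [hY]; ring
    omega
  have hsS : s * (n + 1) ≤ S := by rw [hs]; exact Nat.div_mul_le_self _ _
  have hPS : P * S ≤ w := by rw [hP]; exact Nat.div_mul_le_self _ _
  -- the class `T` and the bad ones
  obtain ⟨T, hT⟩ : ∃ T, T = (PT w).filter (TF a J S Y) := ⟨_, rfl⟩
  obtain ⟨G, hG⟩ : ∃ G, G = (PT w).filter (GoodF a J S Y) := ⟨_, rfl⟩
  obtain ⟨Bad, hBad⟩ : ∃ Bad, Bad = T.filter (fun k => ¬ GoodF a J S Y k) := ⟨_, rfl⟩
  have hGT : G = T.filter (GoodF a J S Y) := by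
    ext k
    rw [hG, hT, Finset.filter_filter, Finset.mem_filter, Finset.mem_filter]
    refine ⟨fun h => ⟨h.1, ⟨h.2.1, ?_, h.2.2.2.2⟩, h.2⟩, fun h => ⟨h.1, h.2.2⟩⟩
    obtain ⟨x, hx, hxa, -⟩ := h.2.2.2.1
    exact ⟨x, hx, hxa⟩
  have hsumT : ∑ k ∈ T, N k = ∑ k ∈ G, N k + ∑ k ∈ Bad, N k := by
    rw [hGT, hBad]
    exact (Finset.sum_filter_add_sum_filter_not _ _ _).symm
  have hSrc : ∑ k ∈ (PT w).filter (SrcF a J S), N k ≤ ∑ k ∈ Bad, N k := by
    refine Finset.sum_le_sum_of_subset ?_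
    intro k hk
    rw [Finset.mem_filter] at hk
    obtain ⟨hk, h1, ⟨x, hx, hxa⟩, h3⟩ := hk
    rw [hBad, hT, Finset.mem_filter, Finset.mem_filter]
    exact ⟨⟨hk, h1, ⟨x, hx, by omega⟩, h3⟩, fun h => absurd (h.2.1 x hx) (by omega)⟩
  rw [← hG]
  have hvals : ∀ k ∈ Bad, (k.sum = w ∧ ∀ x ∈ k, 2 ≤ x) ∧ TF a J S Y k ∧
      ¬ GoodF a J S Y k := by
    intro k hk
    rw [hBad, hT, Finset.mem_filter, Finset.mem_filter] at hk
    exact ⟨mem_PT.1 hk.1.1, hk.1.2, hk.2⟩
  clear hBad hGT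
  -- if `T` is empty
  by_cases hTe : Bad = ∅
  · rw [hTe, Finset.sum_empty] at hSrc
    omega
  obtain ⟨k₁, hk₁⟩ := Finset.nonempty_iff_ne_empty.2 hTe
  have hw4 : Y ≤ w := by
    obtain ⟨x, hx, hxa⟩ := (hvals k₁ hk₁).2.1.2.1
    have h1 := Multiset.le_sum_of_mem hx
    rw [(hvals k₁ hk₁).1.1] at h1
    omega
  have hP1 : 1 ≤ P := by
    rw [hP, Nat.le_div_iff_mul_le (by omega)]
    omega
  -- numbers
  have hXP : P * X ^ 2 ≤ S := by
    have h1 : P * X ^ 2 * S ≤ S * S := by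
      calc P * X ^ 2 * S = P * S * X ^ 2 := by ring
        _ ≤ w * X ^ 2 := Nat.mul_le_mul_right _ hPS
        _ ≤ S ^ 2 := hw
        _ = S * S := by ring
    exact Nat.le_of_mul_le_mul_right h1 (by omega)
  have hsP : X * P ≤ s - 2 * P := by
    have h1 : (X + 2) * P ≤ s := by
      rw [hs, Nat.le_div_iff_mul_le (by omega)]
      calc (X + 2) * P * (n + 1) = ((X + 2) * (n + 1)) * P := by ring
        _ ≤ X ^ 2 * P := by
            refine Nat.mul_le_mul_right _ ?_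
            nlinarith
        _ = P * X ^ 2 := by ring
        _ ≤ S := hXP
    have h2 : (X + 2) * P = X * P + 2 * P := by ring
    omega
  -- the letter
  have hlet : ∀ k : Multiset ℕ, ∃ y : ℕ, k ∈ Bad → y ∈ k ∧ 2 * Y ≤ y ∧
      (a < y ∨ ∃ x ∈ k.erase y, a ≤ x + Y) := by
    intro k
    by_cases hk : k ∈ Bad
    · obtain ⟨y, h1, h2⟩ := exists_letter (hvals k hk).2.1 (hvals k hk).2.2 ha3
      exact ⟨y, fun _ => ⟨h1, h2⟩⟩
    · exact ⟨0, fun h => absurd h hk⟩
  choose y hy using hlet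
  have hcard : ∀ k : Multiset ℕ, k.sum = w → (k.toFinset.filter (S ≤ ·)).card ≤ P := by
    intro k hk
    rw [hP, Nat.le_div_iff_mul_le (by omega), ← hk]
    exact card_values k S
  have h2Y : 4 * (n + 1) * S = 2 * Y := by rw [hY]; ring
  have main : (X * P) ^ (n + 1) * ∑ k ∈ Bad, N k ≤ (P ^ (n + 1) * w) * ∑ k ∈ T, N k := by
    refine double_count Bad T (fun k => choices n S s k (y k)) (fun k c => res k (y k) c) N _ _
      ?_ ?_ ?_ ?_
    · intro k hk
      refine (Nat.pow_le_pow_left hsP _).trans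
        (card_choices (hcard k (hvals k hk).1.1) hsS ?_)
      have h1 := (hy k hk).2.1
      omega
    · intro k hk c hc
      obtain ⟨hyk, hyY, hyx⟩ := hy k hk
      have h1 := stable hS hsS hY hYS (hvals k hk).1.1 (hvals k hk).1.2 (hvals k hk).2.1 hyk hyY
        hyx hc
      rw [hT, Finset.mem_filter, mem_PT]
      exact h1
    · intro k hk c hc
      obtain ⟨hyk, hyY, hyx⟩ := hy k hk
      exact split_le hN hS hsS hY hYS hyk hyY hc
    · intro k' hk'
      have hk's : k'.sum = w := by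
        rw [hT, Finset.mem_filter] at hk'
        exact (mem_PT.1 hk'.1).1
      exact fibre_le hS hsS hY hYS (fun k hk => ⟨(hy k hk).1, (hy k hk).2.1⟩) k' hk's
        (hcard k' hk's)
  -- conclusion
  have hPpos : 0 < P ^ (n + 1) * w := Nat.mul_pos (Nat.pow_pos hP1) (by omega)
  have h4 : 4 * (P ^ (n + 1) * w) ≤ (X * P) ^ (n + 1) := by
    rw [mul_pow]
    calc 4 * (P ^ (n + 1) * w) = (4 * w) * P ^ (n + 1) := by ring
      _ ≤ X ^ (n + 1) * P ^ (n + 1) := Nat.mul_le_mul_right _ hwX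
  have h5 : 4 * ∑ k ∈ Bad, N k ≤ ∑ k ∈ T, N k := by
    have h6 : (P ^ (n + 1) * w) * (4 * ∑ k ∈ Bad, N k) ≤ (P ^ (n + 1) * w) * ∑ k ∈ T, N k := by
      calc (P ^ (n + 1) * w) * (4 * ∑ k ∈ Bad, N k)
          = (4 * (P ^ (n + 1) * w)) * ∑ k ∈ Bad, N k := by ring
        _ ≤ (X * P) ^ (n + 1) * ∑ k ∈ Bad, N k := Nat.mul_le_mul_right _ h4
        _ ≤ _ := main
    exact Nat.le_of_mul_le_mul_left h6 hPpos
  omega

end Vale.Agent.P181.SZC1
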